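import Vale.Agent.P133OI.Int0
import Vale.Agent.P133O32.Outer
import Vale.Agent.P133OK.Seq
import Vale.Agent.P133OU.Exist
import Vale.Agent.P133O.Defs

/-!
A separable algebra with approximately central approximate isometries absorbs `O_∞`.
-/

set_option autoImplicit false
set_option linter.all false

namespace Vale.Agent.P133OI

universe u

theorem int (A : Type u) [NonUnitalCStarAlgebra A] [PartialOrder A] [StarOrderedRing A]
    [TopologicalSpace.SeparableSpace A] (O B : Type u) [CStarAlgebra O] [NonUnitalCStarAlgebra B]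
    (T : A →ₗ[ℂ] O →ₗ[ℂ] B) (hO : Vale.Agent.P133O.IsOInfty O)
    (hT : Vale.Agent.P095K.IsTensorProd T) (h : Vale.Agent.P133OC.Pre A) :
    Nonempty (A ≃⋆ₐ[ℂ] B) := by
  obtain ⟨s, hs, hg⟩ := hO.gen
  haveI := hO.nontrivial
  have hd : Dense (StarAlgebra.adjoin ℂ (Set.range s) : Set O) := by
    rw [dense_iff_closure_eq, ← StarSubalgebra.topologicalClosure_coe, hg]
    rfl
  haveI : TopologicalSpace.SeparableSpace O := Vale.Agent.P133OU.separable_gen hd
  obtain ⟨d1, d2, n1, n2, c1, c2, i1, i2, o12⟩ := Vale.Agent.P133OK.seq h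
  obtain ⟨W, hW, h1, h2⟩ := core_T hT s hs hd d1 d2 n1 n2 c1 c2 i1 i2 o12
  exact Vale.Agent.P133O32.outer hT W hW h1 h2

end Vale.Agent.P133OI
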