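import Vale.Agent.P133OI.Rot
import Vale.Agent.P133OI.Cen

/-!
Unitaries which asymptotically commute with the first factor and move it over the second factor.
-/

set_option autoImplicit false
set_option linter.all false

namespace Vale.Agent.P133OI

open Filter Topology

universe u

theorem isSys_words {D : Type*} [CStarAlgebra D] (x y : D) (hx : star x * x = 1)
    (hy : star y * y = 1) (hxy : star x * y = 0) : IsSys (fun i => y ^ i * x) := by
  have hyx : star y * x = 0 := by simpa using congrArg star hxy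
  intro i
  induction i with
  | zero =>
    intro j
    cases j with
    | zero => simpa using hx
    | succ j =>
      show star (y ^ 0 * x) * (y ^ (j + 1) * x) = _
      rw [pow_zero, one_mul, pow_succ', mul_assoc, ← mul_assoc, hxy, zero_mul, if_neg (by omega)]
  | succ i ih =>
    intro j
    cases j with
    | zero =>
      show star (y ^ (i + 1) * x) * (y ^ 0 * x) = _
      rw [pow_zero, one_mul, pow_succ', mul_assoc y, star_mul, mul_assoc, hyx, mul_zero,
        if_neg (by omega)]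
    | succ j =>
      have h := ih j
      show star (y ^ (i + 1) * x) * (y ^ (j + 1) * x) = _
      rw [pow_succ', pow_succ', mul_assoc y, mul_assoc y, star_mul y, mul_assoc,
        ← mul_assoc (star y), hy, one_mul]
      simpa using h

theorem core {A O U : Type u} [NonUnitalCStarAlgebra A] [CStarAlgebra O] [CStarAlgebra U]
    (haue : ∀ (D : Type u) [CStarAlgebra D], AUE D)
    (Θ : A →ₗ[ℂ] O →ₗ[ℂ] U) (hmul : ∀ a a' z z', Θ (a * a') (z * z') = Θ a z * Θ a' z')
    (hstar : ∀ a z, Θ (star a) (star z) = star (Θ a z)) (hnorm : ∀ a z, ‖Θ a z‖ ≤ ‖a‖ * ‖z‖)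
    (s : ℕ → O) (hs : IsSys s) (hg : Dense (StarAlgebra.adjoin ℂ (Set.range s) : Set O))
    (d1 d2 : ℕ → A) (n1 : ∀ k, ‖d1 k‖ ≤ 1) (n2 : ∀ k, ‖d2 k‖ ≤ 1)
    (c1 : ∀ a, Tendsto (fun k => d1 k * a - a * d1 k) atTop (𝓝 0))
    (c2 : ∀ a, Tendsto (fun k => d2 k * a - a * d2 k) atTop (𝓝 0))
    (i1 : ∀ a, Tendsto (fun k => star (d1 k) * d1 k * a - a) atTop (𝓝 0))
    (i2 : ∀ a, Tendsto (fun k => star (d2 k) * d2 k * a - a) atTop (𝓝 0))
    (o12 : ∀ a, Tendsto (fun k => star (d1 k) * d2 k * a) atTop (𝓝 0)) :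
    ∃ W : ℕ → ℕ → U, (∀ m k, W m k ∈ unitary U) ∧
      (∀ m a, Tendsto (fun k => W m k * Θ a 1 * star (W m k)) atTop (𝓝 (Θ a 1))) ∧
      ∀ a z (ε : ℝ), 0 < ε → ∀ᶠ m in atTop, ∀ᶠ k in atTop, ∃ a',
        ‖W m k * Θ a' 1 * star (W m k) - Θ a z‖ ≤ ε := by
  have hst1 : ∀ a, star (Θ a 1) = Θ (star a) 1 := fun a => by rw [← hstar, star_one]
  have hr : ∀ a a' z, Θ a z * Θ a' 1 = Θ (a * a') z := fun a a' z => by rw [← hmul, mul_one]
  have hl : ∀ a a' z, Θ a 1 * Θ a' z = Θ (a * a') z := fun a a' z => by rw [← hmul, one_mul]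
  have hsub : ∀ a a' z, Θ (a - a') z = Θ a z - Θ a' z := fun a a' z => by
    rw [map_sub, LinearMap.sub_apply]
  obtain ⟨C, iC, D, iD, q, ev, hq, hcomm, hex, hqe, hqn⟩ :=
    exists_cen (Set.range fun a => Θ a 1) (by
      rintro _ ⟨a, rfl⟩
      exact ⟨star a, (hst1 a).symm⟩)
  have hev : ∀ k c, ‖ev k c‖ ≤ ‖c‖ := fun k c => NonUnitalStarAlgHom.norm_apply_le (ev k) c
  have hΘ0 : ∀ (x : ℕ → A) (z : O), Tendsto x atTop (𝓝 0) →
      Tendsto (fun k => Θ (x k) z) atTop (𝓝 0) := by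
    intro x z hx
    rw [tendsto_zero_iff_norm_tendsto_zero] at hx ⊢
    have h := hx.mul_const ‖z‖
    rw [zero_mul] at h
    exact squeeze_zero (fun _ => norm_nonneg _) (fun k => hnorm _ _) h
  have hlift : ∀ x : ℕ → A, (∀ k, ‖x k‖ ≤ 1) →
      (∀ a, Tendsto (fun k => x k * a - a * x k) atTop (𝓝 0)) →
      ∀ z, ∃ c, ∀ k, ev k c = Θ (x k) z := by
    intro x hx hc z
    refine hex _ ‖z‖ (fun k => (hnorm _ _).trans
      (mul_le_of_le_one_left (norm_nonneg _) (hx k))) ?_
    rintro _ ⟨a, rfl⟩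
    refine (hΘ0 _ z (hc a)).congr fun k => ?_
    show _ = Θ (x k) z * Θ a 1 - Θ a 1 * Θ (x k) z
    rw [hr, hl, hsub]
  have hq' : ∀ (c c' : C) (z : O) (x : A → ℕ → A), (∀ a, Tendsto (x a) atTop (𝓝 0)) →
      (∀ a k, (ev k c - ev k c') * Θ a 1 = Θ (x a k) z) → q c = q c' := by
    intro c c' z x hx he
    refine hqe c c' ?_
    rintro _ ⟨a, rfl⟩
    exact (hΘ0 _ z (hx a)).congr fun k => (he a k).symm
  have hq0 : ∀ c c' : C, (∀ k, ev k c = ev k c') → q c = q c' := by
    intro c c' h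
    refine hqe c c' fun a _ => tendsto_const_nhds.congr fun k => ?_
    rw [h, sub_self, zero_mul]
  obtain ⟨e, he⟩ : ∃ e : ℕ → A, ∀ k, e k = star (d1 k) * d1 k := ⟨_, fun _ => rfl⟩
  have hes : ∀ k, star (e k) = e k := fun k => by rw [he, star_mul, star_star]
  have hen : ∀ k, ‖e k‖ ≤ 1 := fun k => by
    rw [he, CStarRing.norm_star_mul_self]
    exact mul_le_one₀ (n1 k) (norm_nonneg _) (n1 k)
  have hea : ∀ a, Tendsto (fun k => e k * a - a) atTop (𝓝 0) := fun a =>
    (i1 a).congr fun k => by rw [he]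
  have hec : ∀ a, Tendsto (fun k => e k * a - a * e k) atTop (𝓝 0) := fun a =>
    (null_sub (hea a) (null_star (hea (star a)))).congr fun k => by
      rw [star_sub, star_mul, star_star, hes]
      abel
  choose cz hcz using hlift e hen hec
  obtain ⟨C1, hC1⟩ := hlift d1 n1 c1 1
  obtain ⟨C2, hC2⟩ := hlift d2 n2 c2 1
  have hone : q (cz 1) = 1 := by
    rw [← map_one q]
    refine hq' _ _ 1 _ hea fun a k => ?_
    rw [hcz, map_one (ev k), sub_mul, one_mul, hr, hsub]
  let τ : O →⋆ₐ[ℂ] D :=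
    { toFun := fun z => q (cz z)
      map_one' := hone
      map_mul' := by
        intro z z'
        rw [← map_mul q]
        refine (hq' _ _ (z * z') _ (fun a => null_mul_left hen (hea a)) fun a k => ?_).symm
        rw [map_mul, hcz, hcz, hcz, ← hmul, ← hsub, hr]
        congr 2
        noncomm_ring
      map_zero' := by
        rw [← map_zero q]
        refine hq0 _ _ fun k => ?_
        rw [hcz, map_zero, map_zero]
      map_add' := by
        intro z z'
        rw [← map_add q]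
        refine hq0 _ _ fun k => ?_
        rw [map_add, hcz, hcz, hcz, map_add]
      commutes' := by
        intro r
        rw [Algebra.algebraMap_eq_smul_one, Algebra.algebraMap_eq_smul_one, ← hone, ← map_smul q]
        refine hq0 _ _ fun k => ?_
        rw [map_smul, hcz, hcz, map_smul]
      map_star' := by
        intro z
        rw [← map_star q]
        refine hq0 _ _ fun k => ?_
        rw [map_star, hcz, hcz, ← hstar, hes] }
  have hτ : ∀ z, τ z = q (cz z) := fun _ => rfl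
  have hτc : Continuous τ :=
    AddMonoidHomClass.continuous_of_bound τ 1 fun x => by
      rw [one_mul]; exact NonUnitalStarAlgHom.norm_apply_le τ x
  have hiso : ∀ (x : ℕ → A) (c : C), (∀ k, ev k c = Θ (x k) 1) →
      (∀ a, Tendsto (fun k => star (x k) * x k * a - a) atTop (𝓝 0)) → star (q c) * q c = 1 := by
    intro x c hc hx
    rw [← map_star q, ← map_mul q, ← map_one q]
    refine hq' _ _ 1 _ hx fun a k => ?_
    rw [map_mul, map_star, hc, hst1, hr, map_one (ev k), sub_mul, one_mul, hr, hsub]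
  have h12 : star (q C1) * q C2 = 0 := by
    rw [← map_star q, ← map_mul q, ← map_zero q]
    refine hq' _ _ 1 _ o12 fun a k => ?_
    rw [map_mul, map_star, hC1, hC2, hst1, hr, map_zero, sub_zero, hr]
  have hcom : ∀ (x : ℕ → A) (c : C), (∀ k, ev k c = Θ (x k) 1) → (∀ k, ‖x k‖ ≤ 1) →
      (∀ a, Tendsto (fun k => x k * a - a * x k) atTop (𝓝 0)) → ∀ z, Commute (q c) (τ z) := by
    intro x c hc hn hx z
    show q c * τ z = τ z * q c
    rw [hτ, ← map_mul q, ← map_mul q]
    refine hq' _ _ z _ (fun a => null_add (null_sub (null_sub (null_mul_left hn (hea a))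
      (null_mul_left hen (hx a))) (null_mul_right hn (hea a))) (hx a)) fun a k => ?_
    rw [map_mul, map_mul, hc, hcz, hl, hr, ← hsub, hr]
    congr 2
    noncomm_ring
  have hσ := isSys_words (q C1) (q C2) (hiso d1 C1 hC1 i1) (hiso d2 C2 hC2 i2) h12
  have hτs : IsSys (fun i => τ (s i)) := by
    intro i j
    show star (τ (s i)) * τ (s j) = _
    rw [← map_star, ← map_mul, hs]
    split_ifs
    · exact map_one τ
    · exact map_zero τ
  have hc : ∀ i j, (q C2 ^ i * q C1) * τ (s j) = τ (s j) * (q C2 ^ i * q C1) := fun i j =>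
    (((hcom d2 C2 hC2 n2 c2 (s j)).pow_left i).mul_left (hcom d1 C1 hC1 n1 c1 (s j))).eq
  choose v hv0 hv using fun m : ℕ => exists_u0 (haue _) _ _ hσ hτs hc m (1 / ((m : ℝ) + 1))
    (by positivity)
  choose V hV hqV using fun m => exists_lift q hq (v m) (hv0 m)
  let E0 : StarSubalgebra ℂ D :=
    { carrier := {y | ∃ c, q c = y ∧ ∀ k, ∃ a, ev k c = Θ a 1}
      mul_mem' := by
        rintro _ _ ⟨c, rfl, hc⟩ ⟨c', rfl, hc'⟩
        refine ⟨c * c', map_mul q _ _, fun k => ?_⟩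
        obtain ⟨a, ha⟩ := hc k
        obtain ⟨a', ha'⟩ := hc' k
        exact ⟨a * a', by rw [map_mul, ha, ha', hr]⟩
      add_mem' := by
        rintro _ _ ⟨c, rfl, hc⟩ ⟨c', rfl, hc'⟩
        refine ⟨c + c', map_add q _ _, fun k => ?_⟩
        obtain ⟨a, ha⟩ := hc k
        obtain ⟨a', ha'⟩ := hc' k
        exact ⟨a + a', by rw [map_add, ha, ha', map_add, LinearMap.add_apply]⟩
      algebraMap_mem' := by
        intro r
        refine ⟨r • cz 1, by rw [map_smul, hone, Algebra.algebraMap_eq_smul_one], fun k => ?_⟩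
        exact ⟨r • e k, by rw [map_smul, hcz, map_smul, LinearMap.smul_apply]⟩
      star_mem' := by
        rintro _ ⟨c, rfl, hc⟩
        refine ⟨star c, map_star q _, fun k => ?_⟩
        obtain ⟨a, ha⟩ := hc k
        exact ⟨star a, by rw [map_star, ha, hst1]⟩ }
  have hσE : ∀ i, q C2 ^ i * q C1 ∈ E0 := fun i =>
    mul_mem (pow_mem (show q C2 ∈ E0 from ⟨C2, rfl, fun k => ⟨_, hC2 k⟩⟩) i)
      (show q C1 ∈ E0 from ⟨C1, rfl, fun k => ⟨_, hC1 k⟩⟩)
  let E : ℕ → StarSubalgebra ℂ D := fun m =>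
    E0.map ((Unitary.conjStarAlgAut ℂ D (v m) : D ≃⋆ₐ[ℂ] D) : D →⋆ₐ[ℂ] D)
  have hE : ∀ m y, y ∈ E m ↔ ∃ x ∈ E0, (v m : D) * x * star (v m : D) = y := fun m y =>
    StarSubalgebra.mem_map
  have hall : ∀ z, τ z ∈ limAlg E := by
    have h1 : StarAlgebra.adjoin ℂ (Set.range s) ≤ (limAlg E).comap τ := by
      refine StarAlgebra.adjoin_le ?_
      rintro _ ⟨i, rfl⟩
      show τ (s i) ∈ limAlg E
      intro ε hε
      filter_upwards [eventually_gt_atTop i,
        (tendsto_one_div_add_atTop_nhds_zero_nat (𝕜 := ℝ)).eventually (ge_mem_nhds hε)] with m h2 h3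
      exact ⟨_, (hE m _).2 ⟨_, hσE i, rfl⟩, (hv m i h2).trans h3⟩
    have h2 : IsClosed (τ ⁻¹' (limAlg E : Set D)) := (isClosed_limAlg E).preimage hτc
    intro z
    exact closure_minimal (fun x hx => h1 hx) h2 (hg z)
  have hW : ∀ m k, ev k (V m) ∈ unitary U := fun m k => Unitary.map_mem (ev k) (hV m)
  have hW0 : ∀ m a, Tendsto (fun k => ev k (V m) * Θ a 1 * star (ev k (V m)) - Θ a 1) atTop
      (𝓝 0) := by
    intro m a
    refine (null_mul_right (u := fun k => star (ev k (V m))) (M := ‖V m‖)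
      (fun k => by rw [norm_star]; exact hev k _) (hcomm (V m) _ ⟨a, rfl⟩)).congr fun k => ?_
    show (ev k (V m) * Θ a 1 - Θ a 1 * ev k (V m)) * star (ev k (V m)) = _
    rw [sub_mul, mul_assoc (Θ a 1), (Unitary.mem_iff.1 (hW m k)).2, mul_one]
  refine ⟨fun m k => ev k (V m), hW, fun m a => tendsto_sub_nhds_zero_iff.1 (hW0 m a), ?_⟩
  intro a z ε hε
  have hδ : 0 < ε / (4 * (‖a‖ + 1)) := by positivity
  filter_upwards [hall z _ hδ] with m ⟨y, hy, hyn⟩
  obtain ⟨_, ⟨c, rfl, hc⟩, rfl⟩ := (hE m y).1 hy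
  have h1 : ‖q (V m * c * star (V m) - cz z)‖ < ε / (2 * (‖a‖ + 1)) := by
    rw [map_sub, map_mul, map_mul, map_star, hqV, ← hτ]
    refine hyn.trans_lt (div_lt_div_of_pos_left hε (by positivity) ?_)
    nlinarith [norm_nonneg a]
  have h2 := null_add (null_mul_left (fun k => hev k (V m * c * star (V m))) (hW0 m a))
    (hΘ0 _ z (hea a))
  filter_upwards [hqn _ _ h1 _ ⟨a, rfl⟩,
    (NormedAddGroup.tendsto_nhds_zero.1 h2) (ε / 2) (by linarith)] with k h3 h4
  obtain ⟨a', ha'⟩ := hc k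
  refine ⟨a' * a, ?_⟩
  have hu := (Unitary.mem_iff.1 (hW m k)).1
  have e1 : ev k (V m) * Θ (a' * a) 1 * star (ev k (V m)) - Θ a z
      = ev k (V m * c * star (V m) - cz z) * Θ a 1
        + (ev k (V m * c * star (V m)) * (ev k (V m) * Θ a 1 * star (ev k (V m)) - Θ a 1)
          + Θ (e k * a - a) z) := by
    rw [map_sub (ev k), hcz, hsub, ← hr (e k) a z, ← hr a' a 1, map_mul, map_mul, map_star, ha']
    have e2 : ev k (V m) * (Θ a' 1 * Θ a 1) * star (ev k (V m))
        = ev k (V m) * Θ a' 1 * (star (ev k (V m)) * ev k (V m)) * Θ a 1 * star (ev k (V m)) := by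
      rw [hu]
      noncomm_ring
    rw [e2]
    noncomm_ring
  show ‖ev k (V m) * Θ (a' * a) 1 * star (ev k (V m)) - Θ a z‖ ≤ ε
  rw [e1]
  refine (norm_add_le _ _).trans ?_
  have h5 : ‖Θ a 1‖ ≤ ‖a‖ := by
    refine (hnorm a 1).trans (mul_le_of_le_one_right (norm_nonneg _) ?_)
    rcases subsingleton_or_nontrivial O with h | h
    · rw [Subsingleton.elim (1 : O) 0, norm_zero]
      exact zero_le_one
    · rw [norm_one]
  have h6 : ε / (2 * (‖a‖ + 1)) * (‖Θ a 1‖ + 1) ≤ ε / 2 := by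
    calc _ ≤ ε / (2 * (‖a‖ + 1)) * (‖a‖ + 1) := by gcongr
      _ = ε / 2 := by field_simp
  have h7 : ‖ev k (V m * c * star (V m) - cz z) * Θ a 1‖
      ≤ ε / (2 * (‖a‖ + 1)) * (‖Θ a 1‖ + 1) := h3
  linarith

end Vale.Agent.P133OI
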