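import Vale.Agent.P133OI.Core
import Vale.Agent.P133O32.Aue
import Vale.Agent.P133OV.Conv

/-!
The unitaries of the intertwining argument in the unitization of the tensor product.
-/

set_option autoImplicit false
set_option linter.all false

namespace Vale.Agent.P133OI

open Filter Topology

universe u

theorem core_T {A O B : Type u} [NonUnitalCStarAlgebra A] [CStarAlgebra O]
    [NonUnitalCStarAlgebra B] {T : A →ₗ[ℂ] O →ₗ[ℂ] B} (hT : Vale.Agent.P095K.IsTensorProd T)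
    (s : ℕ → O) (hs : ∀ i j, star (s i) * s j = if i = j then 1 else 0)
    (hg : Dense (StarAlgebra.adjoin ℂ (Set.range s) : Set O))
    (d1 d2 : ℕ → A) (n1 : ∀ k, ‖d1 k‖ ≤ 1) (n2 : ∀ k, ‖d2 k‖ ≤ 1)
    (c1 : ∀ a, Tendsto (fun k => d1 k * a - a * d1 k) atTop (𝓝 0))
    (c2 : ∀ a, Tendsto (fun k => d2 k * a - a * d2 k) atTop (𝓝 0))
    (i1 : ∀ a, Tendsto (fun k => star (d1 k) * d1 k * a - a) atTop (𝓝 0))
    (i2 : ∀ a, Tendsto (fun k => star (d2 k) * d2 k * a - a) atTop (𝓝 0))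
    (o12 : ∀ a, Tendsto (fun k => star (d1 k) * d2 k * a) atTop (𝓝 0)) :
    ∃ W : ℕ → ℕ → Unitization ℂ B, (∀ m k, W m k ∈ unitary (Unitization ℂ B)) ∧
      (∀ m a, Tendsto (fun k => W m k * ((T a 1 : B) : Unitization ℂ B) * star (W m k)) atTop
        (𝓝 ((T a 1 : B) : Unitization ℂ B))) ∧
      ∀ a z (ε : ℝ), 0 < ε → ∀ᶠ m in atTop, ∀ᶠ k in atTop, ∃ a',
        ‖W m k * ((T a' 1 : B) : Unitization ℂ B) * star (W m k)
          - ((T a z : B) : Unitization ℂ B)‖ ≤ ε := by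
  have hΘ : ∀ a z, (T.compr₂ (Unitization.inrHom ℂ ℂ B)) a z = ((T a z : B) : Unitization ℂ B) :=
    fun _ _ => rfl
  exact core (fun D _ s t hs ht n ε hε => Vale.Agent.P133O32.aue s t hs ht n hε)
    (T.compr₂ (Unitization.inrHom ℂ ℂ B))
    (fun a a' z z' => by rw [hΘ, hΘ, hΘ, hT.map_mul, Unitization.inr_mul])
    (fun a z => by rw [hΘ, hΘ, hT.map_star, Unitization.inr_star])
    (fun a z => by rw [hΘ, Unitization.norm_inr]; exact Vale.Agent.P133OV.norm_T_le hT a z)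
    s hs hg d1 d2 n1 n2 c1 c2 i1 i2 o12

end Vale.Agent.P133OI
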