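import Mathlib

/-!
Two systems of isometries with orthogonal ranges which commute with each other are approximately
conjugate by a unitary in the connected component of the unit, if any two systems are approximately
conjugate in the algebra of continuous paths.  Unitaries of that component lift along quotients.
-/

set_option autoImplicit false
set_option linter.all false

namespace Vale.Agent.P133OI

universe u

/-- A sequence of isometries with orthogonal ranges. -/
def IsSys {D : Type*} [CStarAlgebra D] (s : ℕ → D) : Prop :=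
  ∀ i j, star (s i) * s j = if i = j then 1 else 0

/-- Any two sequences of isometries with orthogonal ranges in `D` are approximately conjugate. -/
def AUE (D : Type*) [CStarAlgebra D] : Prop :=
  ∀ s t : ℕ → D, IsSys s → IsSys t → ∀ (n : ℕ) (ε : ℝ), 0 < ε →
    ∃ u ∈ unitary D, ∀ i < n, ‖u * s i * star u - t i‖ ≤ ε

section Rot

variable {D : Type*} [CStarAlgebra D]

theorem IsSys.mul_left {s : ℕ → D} (hs : IsSys s) {w : D} (hw : star w * w = 1) :
    IsSys (fun i => w * s i) := by
  intro i j
  show star (w * s i) * (w * s j) = _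
  rw [star_mul, mul_assoc, ← mul_assoc (star w), hw, one_mul, hs]

theorem rot_unitary (K : D) (hK : star K = -K) (h3 : K * K * K = -K) (a c : ℝ)
    (h : a ^ 2 + c ^ 2 = 1) :
    (1 + (a : ℂ) • K + ((1 - c : ℝ) : ℂ) • (K * K)) ∈ unitary D := by
  have hc : ((a : ℂ)) ^ 2 + (c : ℂ) ^ 2 = 1 := by exact_mod_cast h
  have hs : star (1 + (a : ℂ) • K + ((1 - c : ℝ) : ℂ) • (K * K))
      = 1 - (a : ℂ) • K + ((1 - c : ℝ) : ℂ) • (K * K) := by
    simp only [star_add, star_one, star_smul, star_mul, hK, Complex.star_def, Complex.conj_ofReal,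
      neg_mul_neg, smul_neg, sub_eq_add_neg]
  have h3' : K * (K * K) = -K := by rw [← mul_assoc, h3]
  have h4 : K * K * (K * K) = -(K * K) := by rw [← mul_assoc, h3, neg_mul]
  have hz : (2 * (1 - (c : ℂ)) - (a : ℂ) ^ 2 - (1 - (c : ℂ)) ^ 2) = 0 := by
    linear_combination (-1 : ℂ) * hc
  rw [Unitary.mem_iff, hs]
  push_cast
  constructor
  · have e : (1 - (a : ℂ) • K + (1 - (c : ℂ)) • (K * K)) * (1 + (a : ℂ) • K + (1 - (c : ℂ)) • (K * K))
        = 1 + (2 * (1 - (c : ℂ)) - (a : ℂ) ^ 2 - (1 - (c : ℂ)) ^ 2) • (K * K) := by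
      simp only [add_mul, mul_add, sub_mul, mul_sub, one_mul, mul_one, smul_mul_assoc,
        mul_smul_comm, h3, h3', h4]
      module
    rw [e, hz, zero_smul, add_zero]
  · have e : (1 + (a : ℂ) • K + (1 - (c : ℂ)) • (K * K)) * (1 - (a : ℂ) • K + (1 - (c : ℂ)) • (K * K))
        = 1 + (2 * (1 - (c : ℂ)) - (a : ℂ) ^ 2 - (1 - (c : ℂ)) ^ 2) • (K * K) := by
      simp only [add_mul, mul_add, sub_mul, mul_sub, one_mul, mul_one, smul_mul_assoc,
        mul_smul_comm, h3, h3', h4]
      module
    rw [e, hz, zero_smul, add_zero]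

/-- A path of unitaries which moves one finite system onto an orthogonal one. -/
theorem exists_rot (x y : ℕ → D) (n : ℕ)
    (hx : ∀ i < n, ∀ j < n, star (x i) * x j = if i = j then 1 else 0)
    (hy : ∀ i < n, ∀ j < n, star (y i) * y j = if i = j then 1 else 0)
    (hxy : ∀ i < n, ∀ j < n, star (x i) * y j = 0) :
    ∃ w : C(unitInterval, D), w ∈ unitary C(unitInterval, D) ∧ w 0 = 1 ∧ ∀ i < n, w 1 * x i = y i := by
  classical
  have hyx : ∀ i < n, ∀ j < n, star (y i) * x j = 0 := by
    intro i hi j hj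
    have := congrArg star (hxy j hj i hi)
    simpa using this
  set K : D := ∑ i ∈ Finset.range n, (y i * star (x i) - x i * star (y i)) with hKdef
  have hKx : ∀ j < n, K * x j = y j := by
    intro j hj
    rw [hKdef, Finset.sum_mul, Finset.sum_eq_single j]
    · rw [sub_mul, mul_assoc, mul_assoc, hx j hj j hj, hyx j hj j hj]
      simp
    · intro i hi hij
      have hi' := Finset.mem_range.1 hi
      rw [sub_mul, mul_assoc, mul_assoc, hx i hi' j hj, hyx i hi' j hj]
      simp [hij]
    · intro h
      exact absurd (Finset.mem_range.2 hj) h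
  have hKy : ∀ j < n, K * y j = - x j := by
    intro j hj
    rw [hKdef, Finset.sum_mul, Finset.sum_eq_single j]
    · rw [sub_mul, mul_assoc, mul_assoc, hy j hj j hj, hxy j hj j hj]
      simp
    · intro i hi hij
      have hi' := Finset.mem_range.1 hi
      rw [sub_mul, mul_assoc, mul_assoc, hy i hi' j hj, hxy i hi' j hj]
      simp [hij]
    · intro h
      exact absurd (Finset.mem_range.2 hj) h
  have hK : star K = -K := by
    rw [hKdef, star_sum, ← Finset.sum_neg_distrib]
    refine Finset.sum_congr rfl fun i _ => ?_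
    simp [star_mul]
  have h3 : K * K * K = -K := by
    have e : K * K * K = ∑ i ∈ Finset.range n, K * K * (y i * star (x i) - x i * star (y i)) := by
      rw [← Finset.mul_sum]
    rw [e]
    conv_rhs => rw [hKdef, ← Finset.sum_neg_distrib]
    refine Finset.sum_congr rfl fun i hi => ?_
    have hi' := Finset.mem_range.1 hi
    have e1 : K * K * (y i * star (x i) - x i * star (y i))
        = K * (K * y i) * star (x i) - K * (K * x i) * star (y i) := by noncomm_ring
    rw [e1, hKy i hi', hKx i hi', mul_neg, hKx i hi', hKy i hi']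
    noncomm_ring
  let w : C(unitInterval, D) :=
    { toFun := fun t => 1 + ((Real.sin (Real.pi / 2 * t) : ℝ) : ℂ) • K
        + ((1 - Real.cos (Real.pi / 2 * t) : ℝ) : ℂ) • (K * K)
      continuous_toFun := by fun_prop }
  have hw : ∀ t, w t ∈ unitary D := fun t =>
    rot_unitary K hK h3 _ _ (Real.sin_sq_add_cos_sq _)
  refine ⟨w, ?_, ?_, ?_⟩
  · rw [Unitary.mem_iff]
    constructor
    · ext t
      exact (Unitary.mem_iff.1 (hw t)).1
    · ext t
      exact (Unitary.mem_iff.1 (hw t)).2
  · simp [w]
  · intro i hi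
    have e : w 1 = 1 + K + K * K := by simp [w]
    rw [e, add_mul, add_mul, one_mul, mul_assoc, hKx i hi, hKy i hi]
    abel

theorem unitary_apply {w : C(unitInterval, D)} (hw : w ∈ unitary C(unitInterval, D)) (t : unitInterval) : w t ∈ unitary D := by
  rw [Unitary.mem_iff] at hw ⊢
  exact ⟨by simpa using congrArg (fun f : C(unitInterval, D) => f t) hw.1,
    by simpa using congrArg (fun f : C(unitInterval, D) => f t) hw.2⟩

/-- Two commuting systems are approximately conjugate within the component of the unit. -/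
theorem exists_u0 (haue : AUE C(unitInterval, D)) (σ τ : ℕ → D) (hσ : IsSys σ) (hτ : IsSys τ)
    (hc : ∀ i j, σ i * τ j = τ j * σ i) (n : ℕ) (ε : ℝ) (hε : 0 < ε) :
    ∃ v : unitary D, v ∈ pathComponent (1 : unitary D) ∧
      ∀ i < n, ‖(v : D) * σ i * star (v : D) - τ i‖ ≤ ε := by
  have hσn : star (σ n) * σ n = 1 := by simpa using hσ n n
  have hτn : star (τ n) * τ n = 1 := by simpa using hτ n n
  have s1 : ∀ i < n, ∀ j < n, star (σ n * τ i) * (σ n * τ j) = if i = j then 1 else 0 := by
    intro i _ j _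
    rw [star_mul, mul_assoc, ← mul_assoc (star (σ n)), hσn, one_mul, hτ]
  have s2 : ∀ i < n, ∀ j < n, star (τ n * τ i) * (τ n * τ j) = if i = j then 1 else 0 := by
    intro i _ j _
    rw [star_mul, mul_assoc, ← mul_assoc (star (τ n)), hτn, one_mul, hτ]
  obtain ⟨w1, hw1, h10, h11⟩ := exists_rot σ (fun i => σ n * τ i) n (fun i _ j _ => hσ i j) s1
    (by
      intro i hi j _
      rw [← mul_assoc, hσ, if_neg hi.ne, zero_mul])
  obtain ⟨w2, hw2, h20, h21⟩ := exists_rot (fun i => σ n * τ i) (fun i => τ n * τ i) n s1 s2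
    (by
      intro i hi j _
      rw [hc, star_mul, mul_assoc, ← mul_assoc (star (τ i)), hτ, if_neg hi.ne, zero_mul, mul_zero])
  obtain ⟨w3, hw3, h30, h31⟩ := exists_rot (fun i => τ n * τ i) τ n s2 (fun i _ j _ => hτ i j)
    (by
      intro i _ j hj
      rw [star_mul, mul_assoc, hτ, if_neg hj.ne', mul_zero])
  set w : C(unitInterval, D) := w3 * w2 * w1 with hwdef
  have hw : w ∈ unitary C(unitInterval, D) := mul_mem (mul_mem hw3 hw2) hw1
  have hw0 : w 0 = 1 := by simp [hwdef, h10, h20, h30]
  have hw1' : ∀ i < n, w 1 * σ i = τ i := by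
    intro i hi
    have a1 := h11 i hi
    have a2 := h21 i hi
    have a3 := h31 i hi
    simp only [hwdef, ContinuousMap.mul_apply, mul_assoc]
    rw [a1, a2, a3]
  let S : ℕ → C(unitInterval, D) := fun i => ContinuousMap.const unitInterval (σ i)
  have hS : IsSys S := by
    intro i j
    ext t
    have := hσ i j
    by_cases hij : i = j
    · simpa [S, hij] using this
    · simpa [S, hij] using this
  have hS' : IsSys (fun i => w * S i) := hS.mul_left (Unitary.mem_iff.1 hw).1
  obtain ⟨u, hu, hun⟩ := haue S (fun i => w * S i) hS hS' n (ε / 2) (by linarith)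
  have hev : ∀ i < n, ∀ t, ‖u t * σ i * star (u t) - w t * σ i‖ ≤ ε / 2 := by
    intro i hi t
    have := (ContinuousMap.norm_coe_le_norm (u * S i * star u - w * S i) t).trans (hun i hi)
    simpa [S] using this
  have hut := unitary_apply hu
  have hmem : ∀ t, u t * star (u 0) ∈ unitary D := fun t =>
    mul_mem (hut t) (Unitary.star_mem (hut 0))
  refine ⟨⟨u 1 * star (u 0), hmem 1⟩, ?_, ?_⟩
  · refine ⟨⟨⟨fun t => ⟨u t * star (u 0), hmem t⟩, ?_⟩, ?_, rfl⟩⟩
    · refine Continuous.subtype_mk ?_ _
      fun_prop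
    · exact Subtype.ext (Unitary.mem_iff.1 (hut 0)).2
  · intro i hi
    have a0 := hev i hi 0
    have a1 := hev i hi 1
    rw [hw0, one_mul] at a0
    rw [hw1' i hi] at a1
    have hu0 := Unitary.mem_iff.1 (hut 0)
    have e : (u 1 * star (u 0)) * σ i * star (u 1 * star (u 0)) - τ i
        = (u 1 * σ i * star (u 1) - τ i)
          - (u 1 * star (u 0)) * (u 0 * σ i * star (u 0) - σ i) * star (u 1 * star (u 0)) := by
      have e2 : (u 1 * star (u 0)) * (u 0 * σ i * star (u 0)) * star (u 1 * star (u 0))
          = u 1 * σ i * star (u 1) := by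
        rw [star_mul, star_star]
        calc u 1 * star (u 0) * (u 0 * σ i * star (u 0)) * (u 0 * star (u 1))
            = u 1 * (star (u 0) * u 0) * σ i * (star (u 0) * u 0) * star (u 1) := by noncomm_ring
          _ = u 1 * σ i * star (u 1) := by rw [hu0.1, mul_one, mul_one]
      rw [mul_sub, sub_mul, e2]
      abel
    show ‖(u 1 * star (u 0)) * σ i * star (u 1 * star (u 0)) - τ i‖ ≤ ε
    rw [e]
    refine (norm_sub_le _ _).trans ?_
    have e3 : ‖(u 1 * star (u 0)) * (u 0 * σ i * star (u 0) - σ i) * star (u 1 * star (u 0))‖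
        = ‖u 0 * σ i * star (u 0) - σ i‖ := by
      rw [CStarRing.norm_mul_mem_unitary _ (Unitary.star_mem (hmem 1)),
        CStarRing.norm_mem_unitary_mul _ (hmem 1)]
    rw [e3]
    linarith

end Rot

section Lift

variable {C D : Type*} [CStarAlgebra C] [CStarAlgebra D]

/-- Unitaries in the component of the unit lift along a surjective homomorphism. -/
theorem exists_lift (q : C →⋆ₐ[ℂ] D) (hq : Function.Surjective q) (v : unitary D)
    (hv : v ∈ pathComponent (1 : unitary D)) : ∃ V ∈ unitary C, q V = v := by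
  obtain ⟨l, rfl⟩ := Unitary.mem_pathComponentOne_iff.1 hv
  clear hv
  have hcont : Continuous q :=
    AddMonoidHomClass.continuous_of_bound q 1 fun x => by
      rw [one_mul]; exact NonUnitalStarAlgHom.norm_apply_le q x
  induction l with
  | nil => exact ⟨1, one_mem _, by simp⟩
  | cons x l ih =>
    obtain ⟨V, hV, e⟩ := ih
    obtain ⟨X, hX⟩ := hq (x : D)
    have hsa : IsSelfAdjoint ((2⁻¹ : ℂ) • (X + star X)) := by
      rw [IsSelfAdjoint, star_smul, star_add, star_star, add_comm (star X)]
      simp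
    have hqX : q ((2⁻¹ : ℂ) • (X + star X)) = x := by
      rw [map_smul, map_add, map_star, hX, x.2.star_eq, ← two_smul ℂ, smul_smul]
      norm_num
    refine ⟨(selfAdjoint.expUnitary ⟨_, hsa⟩ : C) * V, mul_mem (Subtype.prop _) hV, ?_⟩
    rw [List.map_cons, List.prod_cons, map_mul, e, Submonoid.coe_mul]
    congr 1
    letI : NormedAlgebra ℚ C := .restrictScalars ℚ ℂ C
    letI : NormedAlgebra ℚ D := .restrictScalars ℚ ℂ D
    rw [selfAdjoint.expUnitary_coe, selfAdjoint.expUnitary_coe, NormedSpace.map_exp q hcont,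
      map_smul, hqX]

end Lift

end Vale.Agent.P133OI
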